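import Vale.Agent.P236.H49.Refl

/-!
# P236: `b_1 ^ 3` is not a coboundary in the cobar complex of `P_*`

A finite table gives a linear map `τ : P_* → End` whose convolution square vanishes (a piece of
a free resolution over the dual algebra, up to weight 27).  The induced algebra map on the cobar
complex kills all coboundaries and does not kill `b_1 ^ 3`.
-/

namespace Vale.Agent.P236.H525

open TensorProduct Vale.Agent.P236 Vale.Agent.P236.H49

/-- the target algebra -/
abbrev EE : Type := Module.End (ZMod 3) (ℕ → ZMod 3)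

/-- the elementary endomorphism `e_j ↦ e_i` -/
noncomputable def E (t : ℕ × ℕ) : EE :=
  (LinearMap.single (ZMod 3) (fun _ : ℕ => ZMod 3) t.1) ∘ₗ (LinearMap.proj t.2)

theorem E_mul (a b : ℕ × ℕ) : E a * E b = if a.2 = b.1 then E (a.1, b.2) else 0 := by
  apply LinearMap.ext
  intro v
  by_cases h : a.2 = b.1
  · rw [if_pos h]
    simp [E, h]
  · rw [if_neg h]
    simp [E, Pi.single_apply, h]

/-- product of combinations of elementary endomorphisms -/
def mulE : List (ℕ × (ℕ × ℕ)) → List (ℕ × (ℕ × ℕ)) → List (ℕ × (ℕ × ℕ))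
  | [], _ => []
  | a :: l, l' => (l'.flatMap fun b => if a.2.2 == b.2.1 then [(a.1 * b.1 % 3, (a.2.1, b.2.2))]
      else []) ++ mulE l l'

theorem evL_mulE (l l' : List (ℕ × (ℕ × ℕ))) : evL E (mulE l l') = evL E l * evL E l' := by
  induction l with
  | nil => simp [mulE]
  | cons a l ih =>
    have h : evL E (l'.flatMap fun b => if a.2.2 == b.2.1 then [(a.1 * b.1 % 3, (a.2.1, b.2.2))]
        else []) = (((a.1 : ℕ) : ZMod 3) • E a.2) * evL E l' := by
      clear ih
      induction l' with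
      | nil => simp
      | cons b l' ih' =>
        rw [List.flatMap_cons, evL_append, ih', evL_cons, mul_add]
        congr 1
        rw [smul_mul_smul_comm, E_mul]
        by_cases h : a.2.2 = b.2.1
        · rw [if_pos (by simpa using h), if_pos h, evL_cons, evL_nil, add_zero]
          simp only [cast_mod, Nat.cast_mul]
        · rw [if_neg (by simpa using h), if_neg h, evL_nil, smul_zero]
    rw [mulE, evL_append, h, ih, evL_cons, add_mul]

/-- exponent vector -/
noncomputable def fs (m : Mo) : ℕ →₀ ℕ :=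
  Finsupp.single 0 m.1 + Finsupp.single 1 m.2.1 + Finsupp.single 2 m.2.2

theorem mo_eq (m : Mo) : mo m = MvPolynomial.monomial (fs m) (1 : ZMod 3) := by
  rw [mo, fs]
  simp [MvPolynomial.X_pow_eq_monomial, MvPolynomial.monomial_mul]

theorem fs_zero (m : Mo) : fs m 0 = m.1 := by simp [fs]
theorem fs_one (m : Mo) : fs m 1 = m.2.1 := by simp [fs]
theorem fs_two (m : Mo) : fs m 2 = m.2.2 := by simp [fs]
theorem fs_ge (m : Mo) (n : ℕ) (hn : 3 ≤ n) : fs m n = 0 := by
  have h0 : n ≠ 0 := by omega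
  have h1 : n ≠ 1 := by omega
  have h2 : n ≠ 2 := by omega
  simp [fs, Finsupp.single_apply, Ne.symm h0, Ne.symm h1, Ne.symm h2]

theorem fs_inj {m m' : Mo} (h : fs m = fs m') : m = m' := by
  have h0 := congrArg (fun f => f 0) h
  have h1 := congrArg (fun f => f 1) h
  have h2 := congrArg (fun f => f 2) h
  simp only [fs_zero, fs_one, fs_two] at h0 h1 h2
  exact Prod.ext h0 (Prod.ext h1 h2)

/-- tables -/
abbrev Tb := List (Mo × List (ℕ × (ℕ × ℕ)))

/-- the linear map of a table -/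
noncomputable def tauL (T : Tb) : PS →ₗ[ZMod 3] EE :=
  (T.map fun r => (MvPolynomial.lcoeff (ZMod 3) (fs r.1)).smulRight (evL E r.2)).sum

theorem tauL_nil : tauL [] = 0 := rfl

theorem tauL_cons (r : Mo × List (ℕ × (ℕ × ℕ))) (T : Tb) (p : PS) :
    tauL (r :: T) p = MvPolynomial.coeff (fs r.1) p • evL E r.2 + tauL T p := by
  simp [tauL, MvPolynomial.lcoeff_apply]

/-- the value on a monomial -/
def look : Tb → Mo → List (ℕ × (ℕ × ℕ))
  | [], _ => []
  | r :: T, m => if eqM r.1 m then r.2 ++ look T m else look T m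

theorem eqM_self (m : Mo) : eqM m m = true := by simp [eqM]

theorem tauL_mo (T : Tb) (m : Mo) : tauL T (mo m) = evL E (look T m) := by
  induction T with
  | nil => simp [look, tauL_nil]
  | cons r T ih =>
    rw [tauL_cons, ih, look, mo_eq, MvPolynomial.coeff_monomial]
    by_cases h : eqM r.1 m = true
    · have h1 := eqM_eq _ _ h
      rw [if_pos h, evL_append, if_pos (by rw [h1]), one_smul]
    · rw [if_neg h, if_neg, zero_smul, zero_add]
      intro h2
      apply h
      rw [fs_inj h2]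
      exact eqM_self _

/-- `τ ⊗ τ` followed by the product -/
noncomputable def tau2 (T : Tb) : PS ⊗[ZMod 3] PS →ₗ[ZMod 3] EE :=
  LinearMap.mul' (ZMod 3) EE ∘ₗ TensorProduct.map (tauL T) (tauL T)

theorem tau2_tmul (T : Tb) (p q : PS) : tau2 T (p ⊗ₜ q) = tauL T p * tauL T q := by
  simp [tau2]

/-- order on pairs of numbers -/
def eqN (a b : ℕ × ℕ) : Bool := a.1 == b.1 && a.2 == b.2
/-- order on pairs of numbers -/
def ltN (a b : ℕ × ℕ) : Bool := if a.1 == b.1 then Nat.blt a.2 b.2 else Nat.blt a.1 b.1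

theorem eqN_eq (a b : ℕ × ℕ) (h : eqN a b = true) : a = b := by
  simp only [eqN, Bool.and_eq_true, beq_iff_eq] at h
  exact Prod.ext h.1 h.2

/-- the value of `τ ⊗ τ` on a combination -/
def comb (T : Tb) : L2 → List (List (ℕ × (ℕ × ℕ)))
  | [] => []
  | t :: l => scl t.1 (mulE (look T t.2.1) (look T t.2.2)) :: comb T l

theorem ev_comb (T : Tb) (l : L2) : ((comb T l).map (evL E)).sum = tau2 T (evL v2 l) := by
  induction l with
  | nil => simp [comb]
  | cons t l ih =>
    rw [comb, List.map_cons, List.sum_cons, ih, evL_scl, evL_mulE, evL_cons, map_add, map_smul,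
      v2, tau2_tmul, tauL_mo, tauL_mo]

/-- emptiness -/
def isNil {α : Type} : List α → Bool
  | [] => true
  | _ => false

/-- the check for one monomial -/
def chk (T : Tb) (m : Mo) : Bool := isNil (msum ltN eqN 1000 20 (comb T (cop m)))

theorem tau2_of_chk {T : Tb} {m : Mo} (h : chk T m = true) : tau2 T (ΔP (mo m)) = 0 := by
  rw [← ev_cop, ← ev_comb, ← evL_msum E ltN eqN eqN_eq 1000 20]
  rw [chk] at h
  revert h
  generalize msum ltN eqN 1000 20 (comb T (cop m)) = l
  intro h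
  match l, h with
  | [], _ => rfl

/-! ### weights -/

/-- weight of the variable `ξ_{n+1}` -/
def wv (n : ℕ) : ℕ := (3 ^ (n + 1) - 1) / 2

/-- weight of a monomial -/
noncomputable def W (s : ℕ →₀ ℕ) : ℕ := s.sum fun n k => k * wv n

theorem W_add (s t : ℕ →₀ ℕ) : W (s + t) = W s + W t := by
  unfold W
  rw [Finsupp.sum_add_index' (by simp) (by intros; ring)]

theorem W_single (n k : ℕ) : W (Finsupp.single n k) = k * wv n := by
  unfold W
  rw [Finsupp.sum_single_index (by simp)]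

theorem W_fs (m : Mo) : W (fs m) = m.1 + 4 * m.2.1 + 13 * m.2.2 := by
  rw [fs, W_add, W_add, W_single, W_single, W_single]
  have h0 : wv 0 = 1 := rfl
  have h1 : wv 1 = 4 := rfl
  have h2 : wv 2 = 13 := rfl
  rw [h0, h1, h2]
  ring

/-- the span of the pairs of monomials of total weight `N` -/
noncomputable def GW (N : ℕ) : Submodule (ZMod 3) (PS ⊗[ZMod 3] PS) :=
  Submodule.span (ZMod 3) {u | ∃ s t : ℕ →₀ ℕ, W s + W t = N ∧
    u = MvPolynomial.monomial s (1 : ZMod 3) ⊗ₜ[ZMod 3] MvPolynomial.monomial t (1 : ZMod 3)}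

theorem mem_GW (s t : ℕ →₀ ℕ) : MvPolynomial.monomial s (1 : ZMod 3) ⊗ₜ[ZMod 3]
    MvPolynomial.monomial t (1 : ZMod 3) ∈ GW (W s + W t) :=
  Submodule.subset_span ⟨s, t, rfl, rfl⟩

theorem GW_mul {a b : ℕ} {u v : PS ⊗[ZMod 3] PS} (hu : u ∈ GW a) (hv : v ∈ GW b) :
    u * v ∈ GW (a + b) := by
  induction hu using Submodule.span_induction with
  | mem u hu =>
    obtain ⟨s, t, hst, rfl⟩ := hu
    induction hv using Submodule.span_induction with
    | mem v hv =>
      obtain ⟨s', t', hst', rfl⟩ := hv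
      rw [Algebra.TensorProduct.tmul_mul_tmul, MvPolynomial.monomial_mul,
        MvPolynomial.monomial_mul, one_mul]
      have h := mem_GW (s + s') (t + t')
      rwa [W_add, W_add, show W s + W s' + (W t + W t') = a + b by omega] at h
    | zero => rw [mul_zero]; exact Submodule.zero_mem _
    | add x y _ _ hx hy => rw [mul_add]; exact Submodule.add_mem _ hx hy
    | smul r x _ hx => rw [mul_smul_comm]; exact Submodule.smul_mem _ _ hx
  | zero => rw [zero_mul]; exact Submodule.zero_mem _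
  | add x y _ _ hx hy => rw [add_mul]; exact Submodule.add_mem _ hx hy
  | smul r x _ hx => rw [smul_mul_assoc]; exact Submodule.smul_mem _ _ hx

theorem GW_one : (1 : PS ⊗[ZMod 3] PS) ∈ GW 0 := by
  have h := mem_GW 0 0
  simpa [W, Algebra.TensorProduct.one_def] using h

theorem GW_pow {a : ℕ} {u : PS ⊗[ZMod 3] PS} (hu : u ∈ GW a) (n : ℕ) : u ^ n ∈ GW (n * a) := by
  induction n with
  | zero => simpa using GW_one
  | succ n ih =>
    rw [pow_succ, Nat.succ_mul]
    exact GW_mul ih hu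

theorem two_wv (n : ℕ) : 2 * wv n + 1 = 3 ^ (n + 1) := by
  have h : Odd (3 ^ (n + 1)) := Odd.pow (by decide)
  obtain ⟨k, hk⟩ := h
  unfold wv
  rw [hk]
  omega

/-- weight of `ξ_n` -/
noncomputable def sx : ℕ → (ℕ →₀ ℕ)
  | 0 => 0
  | n + 1 => Finsupp.single n 1

theorem xi_eq (n : ℕ) : xi n = MvPolynomial.monomial (sx n) (1 : ZMod 3) := by
  cases n with
  | zero => rfl
  | succ n => rfl

theorem two_W_sx (n : ℕ) : 2 * W (sx n) + 1 = 3 ^ n := by
  cases n with
  | zero => simp [sx, W]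
  | succ n => rw [sx, W_single, one_mul, two_wv]

theorem W_nsmul (k : ℕ) (s : ℕ →₀ ℕ) : W (k • s) = k * W s := by
  induction k with
  | zero => simp [W]
  | succ k ih => rw [succ_nsmul, W_add, ih, Nat.succ_mul]

theorem ΔP_X_mem (n : ℕ) : ΔP (MvPolynomial.X n) ∈ GW (wv n) := by
  rw [ΔP, MvPolynomial.aeval_X]
  refine Submodule.sum_mem _ fun i hi => ?_
  rw [Finset.mem_range] at hi
  rw [xi_eq, xi_eq, MvPolynomial.monomial_pow, one_pow]
  have h := mem_GW (3 ^ i • sx (n + 1 - i)) (sx i)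
  rw [W_nsmul] at h
  have h1 := two_W_sx (n + 1 - i)
  have h2 := two_W_sx i
  have h3 := two_wv n
  have h4 : 3 ^ i * 3 ^ (n + 1 - i) = 3 ^ (n + 1) := by
    rw [← pow_add]
    congr 1
    omega
  have h5 : 3 ^ i * W (sx (n + 1 - i)) + W (sx i) = wv n := by
    have h6 : 3 ^ i * (2 * W (sx (n + 1 - i)) + 1) = 3 ^ (n + 1) := by rw [h1, h4]
    nlinarith
  rwa [h5] at h

theorem ΔP_monomial_mem (s : ℕ →₀ ℕ) :
    ΔP (MvPolynomial.monomial s (1 : ZMod 3)) ∈ GW (W s) := by
  induction s using Finsupp.induction with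
  | zero =>
    have h : (MvPolynomial.monomial (0 : ℕ →₀ ℕ) (1 : ZMod 3) : PS) = 1 := rfl
    rw [h, map_one]
    simpa [W] using GW_one
  | single_add n k s _ _ ih =>
    have h : (MvPolynomial.monomial (Finsupp.single n k + s) (1 : ZMod 3) : PS) =
        MvPolynomial.X n ^ k * MvPolynomial.monomial s (1 : ZMod 3) := by
      rw [MvPolynomial.X_pow_eq_monomial, MvPolynomial.monomial_mul, one_mul]
    rw [h, map_mul, map_pow, W_add, W_single]
    exact GW_mul (GW_pow (ΔP_X_mem n) k) ih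

/-! ### the table -/

def tbl : List (Mo × List (ℕ × (ℕ × ℕ))) := [((1, 0, 0), [(1, (1, 0)), (1, (8, 3)), (1,
    (11, 4)), (1, (12, 5)), (1, (13, 6)), (1, (14, 7)), (1, (24, 16)), (1, (26, 18)), (1,
    (27, 19)), (1, (28, 20)), (1, (29, 21)), (1, (33, 32))]),
  ((2, 0, 0), [(1, (4, 1)), (1, (5, 2)), (1, (15, 8)), (1, (19, 10)), (1, (20, 11)), (1,
    (21, 12)), (1, (22, 14)), (1, (23, 15)), (1, (30, 24)), (1, (31, 26)), (1, (32, 27))]),
  ((3, 0, 0), [(1, (2, 0)), (1, (12, 4)), (2, (13, 5)), (2, (14, 6)), (1, (15, 7)), (1,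
    (17, 9)), (1, (25, 16)), (1, (27, 18)), (1, (29, 20)), (1, (33, 31))]),
  ((0, 1, 0), [(2, (5, 1)), (1, (6, 2)), (2, (21, 11)), (1, (22, 13)), (2, (23, 14)), (2,
    (24, 15)), (2, (32, 26))]),
  ((4, 0, 0), [(1, (5, 1)), (2, (6, 2)), (1, (21, 11)), (2, (22, 13)), (1, (23, 14)), (2,
    (24, 15)), (2, (26, 17)), (2, (30, 23)), (1, (32, 26))]),
  ((2, 1, 0), [(2, (9, 3)), (2, (18, 9)), (1, (27, 17))]),
  ((6, 0, 0), [(2, (6, 1)), (1, (7, 2)), (1, (9, 3)), (1, (16, 7)), (2, (18, 9)), (1,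
    (22, 12)), (2, (23, 13)), (1, (24, 14)), (1, (27, 17)), (1, (31, 25))]),
  ((3, 1, 0), [(2, (8, 2))]),
  ((7, 0, 0), [(1, (8, 2))]),
  ((0, 2, 0), [(2, (17, 8)), (1, (19, 9)), (1, (31, 24))]),
  ((4, 1, 0), [(1, (7, 1)), (1, (22, 11)), (1, (23, 12)), (2, (24, 13)), (2, (31, 24)), (1,
    (32, 25))]),
  ((8, 0, 0), [(2, (25, 14)), (1, (31, 24))]),
  ((1, 2, 0), [(2, (27, 16)), (1, (33, 30))]),
  ((9, 0, 0), [(1, (3, 0)), (2, (8, 1)), (1, (15, 4)), (1, (17, 7)), (1, (27, 16)), (1,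
    (33, 30))]),
  ((2, 2, 0), [(2, (25, 13)), (2, (32, 24))]),
  ((6, 1, 0), [(1, (16, 5)), (2, (26, 15))]),
  ((10, 0, 0), [(1, (23, 11)), (1, (26, 15)), (2, (30, 21)), (1, (32, 24))]),
  ((7, 1, 0), [(1, (18, 8))]),
  ((0, 3, 0), [(2, (9, 2)), (1, (10, 3)), (2, (18, 7)), (1, (27, 15)), (2, (30, 20)), (1,
    (32, 23))]),
  ((4, 2, 0), [(2, (9, 2)), (1, (10, 3)), (1, (27, 15))]),
  ((8, 1, 0), [(2, (27, 15))]),
  ((12, 0, 0), [(1, (9, 2)), (2, (10, 3)), (1, (24, 11)), (2, (27, 15)), (1, (32, 23))]),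
  ((0, 0, 1), [(2, (19, 8))]),
  ((1, 3, 0), [(1, (19, 8))]),
  ((5, 2, 0), [(1, (19, 8))]),
  ((9, 1, 0), [(2, (17, 5)), (1, (19, 8))]),
  ((13, 0, 0), [(2, (19, 8))]),
  ((1, 0, 1), [(2, (9, 1)), (1, (18, 6)), (1, (19, 7))]),
  ((2, 3, 0), [(1, (26, 13)), (2, (32, 22))]),
  ((10, 1, 0), [(2, (18, 6))]),
  ((14, 0, 0), [(1, (19, 7)), (2, (26, 13))]),
  ((3, 0, 1), [(2, (27, 13))]),
  ((12, 1, 0), [(1, (27, 13))]),
  ((16, 0, 0), [(2, (26, 12))]),
  ((2, 4, 0), [(1, (27, 12))]),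
  ((5, 0, 1), [(1, (10, 2)), (1, (27, 12))]),
  ((6, 3, 0), [(1, (32, 21))]),
  ((10, 2, 0), [(2, (19, 5)), (1, (32, 21))]),
  ((14, 1, 0), [(1, (10, 2)), (1, (26, 11))]),
  ((18, 0, 0), [(2, (10, 2)), (1, (19, 5)), (1, (26, 11)), (2, (27, 12)), (2, (31, 20)), (1,
    (32, 21)), (1, (33, 29))]),
  ((0, 5, 0), [(1, (33, 28))]),
  ((12, 2, 0), [(2, (33, 28))])]

def wtL : List ℕ := [0, 1, 3, 9, 3, 5, 7, 9, 10, 15, 21, 4, 6, 8, 10, 12, 15, 18, 21, 23, 6, 8, 12, 14, 16, 18, 22, 24, 7, 9, 18, 24, 26, 27]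

/-- weight of an index -/
def wI (i : ℕ) : ℕ := wtL.getD i 0

/-- weight condition of an entry -/
def okE (m : Mo) (e : ℕ × (ℕ × ℕ)) : Bool :=
  Nat.beq (m.1 + 4 * m.2.1 + 13 * m.2.2 + wI e.2.2) (wI e.2.1) && Nat.ble (wI e.2.1) 27

theorem tbl_ok : ∀ r ∈ tbl, ∀ e ∈ r.2, okE r.1 e = true := by decide +kernel

theorem tbl_chk : ∀ c < 3, ∀ b < 7, ∀ a < 28, a + 4 * b + 13 * c ≤ 27 →
    chk tbl (a, b, c) = true := by decide +kernel

theorem tbl_one : isNil (look tbl (0, 0, 0)) = true := by decide +kernel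

theorem rows_mul {r r' : Mo × List (ℕ × (ℕ × ℕ))} (hr : r ∈ tbl) (hr' : r' ∈ tbl)
    (h : 28 ≤ W (fs r.1) + W (fs r'.1)) : evL E r.2 * evL E r'.2 = 0 := by
  rw [W_fs, W_fs] at h
  have key : ∀ l : List (ℕ × (ℕ × ℕ)), (∀ e ∈ l, okE r.1 e = true) →
      ∀ l' : List (ℕ × (ℕ × ℕ)), (∀ e ∈ l', okE r'.1 e = true) →
      evL E l * evL E l' = 0 := by
    intro l hl
    induction l with
    | nil => intro l' _; simp
    | cons a l ih =>
      intro l' hl'
      rw [evL_cons, add_mul, ih (fun e he => hl e (List.mem_cons_of_mem _ he)) l' hl', add_zero]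
      have ha := hl a List.mem_cons_self
      clear ih hl
      induction l' with
      | nil => simp
      | cons b l' ih' =>
        have hb := hl' b List.mem_cons_self
        rw [evL_cons, mul_add, ih' (fun e he => hl' e (List.mem_cons_of_mem _ he)), add_zero,
          smul_mul_smul_comm, E_mul, if_neg, smul_zero]
        intro hab
        rw [okE, Bool.and_eq_true] at ha hb
        have ha1 := Nat.eq_of_beq_eq_true ha.1
        have ha2 := Nat.le_of_ble_eq_true ha.2
        have hb1 := Nat.eq_of_beq_eq_true hb.1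
        rw [hab] at ha1
        omega
  exact key r.2 (tbl_ok r hr) r'.2 (tbl_ok r' hr')

theorem tau2_pair (s t : ℕ →₀ ℕ) (h : 28 ≤ W s + W t) :
    tau2 tbl (MvPolynomial.monomial s (1 : ZMod 3) ⊗ₜ[ZMod 3]
      MvPolynomial.monomial t (1 : ZMod 3)) = 0 := by
  rw [tau2_tmul]
  have key : ∀ T : Tb, (∀ r ∈ T, r ∈ tbl) → ∀ T' : Tb, (∀ r ∈ T', r ∈ tbl) →
      tauL T (MvPolynomial.monomial s (1 : ZMod 3)) *
        tauL T' (MvPolynomial.monomial t (1 : ZMod 3)) = 0 := by
    intro T hT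
    induction T with
    | nil => intro T' _; simp [tauL_nil]
    | cons r T ih =>
      intro T' hT'
      rw [tauL_cons, add_mul, ih (fun r hr => hT r (List.mem_cons_of_mem _ hr)) T' hT', add_zero]
      have hr := hT r List.mem_cons_self
      clear ih hT
      induction T' with
      | nil => simp [tauL_nil]
      | cons r' T' ih' =>
        have hr' := hT' r' List.mem_cons_self
        rw [tauL_cons, mul_add, ih' (fun r hr => hT' r (List.mem_cons_of_mem _ hr)), add_zero,
          MvPolynomial.coeff_monomial, MvPolynomial.coeff_monomial, smul_mul_smul_comm]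
        by_cases h1 : s = fs r.1
        · by_cases h2 : t = fs r'.1
          · rw [rows_mul hr hr' (by rw [← h1, ← h2]; exact h), smul_zero]
          · rw [if_neg h2, mul_zero, zero_smul]
        · rw [if_neg h1, zero_mul, zero_smul]
  exact key tbl (fun _ h => h) tbl (fun _ h => h)

theorem tau2_GW {N : ℕ} (hN : 28 ≤ N) {u : PS ⊗[ZMod 3] PS} (hu : u ∈ GW N) :
    tau2 tbl u = 0 := by
  induction hu using Submodule.span_induction with
  | mem u hu =>
    obtain ⟨s, t, hst, rfl⟩ := hu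
    exact tau2_pair s t (by omega)
  | zero => rw [map_zero]
  | add x y _ _ hx hy => rw [map_add, hx, hy, add_zero]
  | smul r x _ hx => rw [map_smul, hx, smul_zero]

theorem W_ge (s : ℕ →₀ ℕ) (n : ℕ) : s n * wv n ≤ W s := by
  have h : s = Finsupp.single n (s n) + s.erase n := (Finsupp.single_add_erase n s).symm
  have h2 : W s = s n * wv n + W (s.erase n) := by
    conv_lhs => rw [h]
    rw [W_add, W_single]
  omega

theorem eq_fs_of_W (s : ℕ →₀ ℕ) (h : W s ≤ 27) : s = fs (s 0, s 1, s 2) := by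
  ext n
  match n with
  | 0 => rw [fs_zero]
  | 1 => rw [fs_one]
  | 2 => rw [fs_two]
  | n + 3 =>
    rw [fs_ge _ _ (by omega)]
    have h1 := W_ge s (n + 3)
    have h2 := two_wv (n + 3)
    have h3 : 81 ≤ 3 ^ (n + 3 + 1) := by
      calc 81 = 3 ^ 4 := by norm_num
        _ ≤ 3 ^ (n + 3 + 1) := Nat.pow_le_pow_right (by norm_num) (by omega)
    by_contra hne
    have h4 : 1 ≤ s (n + 3) := Nat.one_le_iff_ne_zero.mpr hne
    have h5 : wv (n + 3) ≤ s (n + 3) * wv (n + 3) := Nat.le_mul_of_pos_left _ h4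
    omega

theorem tau2_monomial (s : ℕ →₀ ℕ) :
    tau2 tbl (ΔP (MvPolynomial.monomial s (1 : ZMod 3))) = 0 := by
  rcases Nat.lt_or_ge 27 (W s) with h | h
  · exact tau2_GW h (ΔP_monomial_mem s)
  · have h1 := eq_fs_of_W s h
    have h2 : W s = s 0 + 4 * s 1 + 13 * s 2 := by
      conv_lhs => rw [h1]
      exact W_fs _
    have h3 := tbl_chk (s 2) (by omega) (s 1) (by omega) (s 0) (by omega) (by omega)
    have h4 := tau2_of_chk h3
    rwa [mo_eq, ← h1] at h4

theorem tau2_Δ (f : PS) : tau2 tbl (ΔP f) = 0 := by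
  induction f using MvPolynomial.induction_on' with
  | monomial s a =>
    have h : (MvPolynomial.monomial s a : PS) = a • MvPolynomial.monomial s (1 : ZMod 3) := by
      rw [MvPolynomial.smul_monomial, smul_eq_mul, mul_one]
    rw [h, map_smul, map_smul, tau2_monomial, smul_zero]
  | add p q hp hq => rw [map_add, map_add, hp, hq, add_zero]

/-- the representation of the cobar complex -/
noncomputable def rep : TensorAlgebra (ZMod 3) PS →ₐ[ZMod 3] EE :=
  TensorAlgebra.lift (ZMod 3) (tauL tbl)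

theorem rep_ι (x : PS) : rep (TensorAlgebra.ι (ZMod 3) x) = tauL tbl x := by
  simp [rep]

theorem rep_two (t : PS ⊗[ZMod 3] PS) : rep (two (ZMod 3) PS t) = tau2 tbl t := by
  induction t using TensorProduct.induction_on with
  | zero => simp
  | tmul f g => rw [two_tmul, map_mul, rep_ι, rep_ι, tau2_tmul]
  | add s t hs ht => rw [map_add, map_add, hs, ht, map_add]

theorem rep_one : rep (TensorAlgebra.ι (ZMod 3) (1 : PS)) = 0 := by
  have h := tbl_one
  rw [rep_ι, ← mo_zero, tauL_mo]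
  revert h
  generalize look tbl (0, 0, 0) = l
  intro h
  match l, h with
  | [], _ => rfl

theorem rep_dCob (w : TensorAlgebra (ZMod 3) PS) :
    rep (dCob ΔP.toLinearMap (1 : PS) w) = 0 := by
  induction w using TensorAlgebra.induction with
  | algebraMap r => simp
  | ι x =>
    have e1 : ΔP.toLinearMap x = ΔP x := rfl
    rw [dCob_ι, dOne_apply, map_sub, map_add, map_mul, map_mul, rep_one, rep_two, e1, tau2_Δ,
      zero_mul, mul_zero, add_zero, sub_zero]
  | mul a b ha hb => rw [dCob_mul, map_add, map_mul, map_mul, ha, hb]; simp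
  | add a b ha hb => rw [map_add, map_add, ha, hb, add_zero]

/-- the value on `b_1` -/
def lB : List (ℕ × (ℕ × ℕ)) :=
  mulE (look tbl (3, 0, 0)) (look tbl (6, 0, 0)) ++ mulE (look tbl (6, 0, 0)) (look tbl (3, 0, 0))

theorem rep_bP_one : rep (bP 1) = evL E lB := by
  have h3 : xi 1 ^ 3 ^ 1 = mo (3, 0, 0) := by simp [mo, xi]
  have h6 : xi 1 ^ (2 * 3 ^ 1) = mo (6, 0, 0) := by simp [mo, xi]
  rw [bP, h3, h6, let1, let1, map_add, map_mul, map_mul, rep_ι, rep_ι, tauL_mo, tauL_mo, lB,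
    evL_append, evL_mulE, evL_mulE]

/-- coefficient of an elementary endomorphism -/
def cf (i j : ℕ) : List (ℕ × (ℕ × ℕ)) → ℕ
  | [] => 0
  | t :: l => (if t.2.1 == i && t.2.2 == j then t.1 else 0) + cf i j l

theorem evL_apply (i j : ℕ) (l : List (ℕ × (ℕ × ℕ))) :
    (evL E l) (Pi.single j 1) i = ((cf i j l : ℕ) : ZMod 3) := by
  induction l with
  | nil => simp [cf]
  | cons t l ih =>
    rw [evL_cons, LinearMap.add_apply, Pi.add_apply, ih, cf, Nat.cast_add]
    congr 1
    rw [LinearMap.smul_apply, Pi.smul_apply]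
    by_cases h1 : t.2.1 = i
    · by_cases h2 : t.2.2 = j
      · subst h1; subst h2
        simp [E]
      · simp [E, h1, h2, Pi.single_apply]
    · simp [E, h1, Pi.single_apply, Ne.symm h1]

theorem lB_cube : cf 33 0 (mulE lB (mulE lB lB)) = 1 := by decide +kernel

/-- `b_1 ^ 3` is not in the image of the differential -/
theorem bP_one_cube_not_image (w : TensorAlgebra (ZMod 3) PS) :
    dCob ΔP.toLinearMap (1 : PS) w ≠ bP 1 * bP 1 * bP 1 := by
  intro h
  have h1 := rep_dCob w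
  rw [h, map_mul, map_mul, rep_bP_one, mul_assoc, ← evL_mulE, ← evL_mulE] at h1
  have h2 := evL_apply 33 0 (mulE lB (mulE lB lB))
  rw [h1, lB_cube] at h2
  simp at h2

/-- `b_1 ^ 3` is not a coboundary -/
theorem not_isCob_b1_cube (s : ℕ) : ¬ IsCob ΔP.toLinearMap (1 : PS) s (bP 1 * bP 1 * bP 1) := by
  rintro ⟨w, -, hw⟩
  exact bP_one_cube_not_image w hw

end Vale.Agent.P236.H525
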